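import Vale.Agent.P011UHB.Defs
import Vale.Agent.P011UD.Aut
import Vale.Agent.P011UP.Std

/-!
Invariant frames of the root lattices: the general part and the exceptional types.
-/

set_option autoImplicit false
set_option linter.all false

namespace Vale.Agent.P011UMS

open Matrix CartanMatrix Vale.Agent.P183CH Vale.Agent.P011U Vale.Agent.P011UD
open Vale.Agent.P011UC (pa)
open Vale.Agent.P011UHB (Ext Od MS DGP)

/-- half of an invariant frame -/
structure Dat {ι κ : Type} [Fintype ι] [DecidableEq ι] (C : Matrix ι ι ℤ) (d : ι → ℤ)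
    (P : Finset κ) (u : κ → ι → ℤ) (m : ℕ) : Prop where
  sym : ∀ i j, C i j * d j = C j i * d i
  inj : ∀ a ∈ P, ∀ b ∈ P, u a = u b → a = b
  dis : ∀ a ∈ P, ∀ b ∈ P, u a ≠ -u b
  rf : ∀ i, ∀ a ∈ P, ∃ b ∈ P, ∃ e : ℤˣ, ∀ j,
    u a j - (if j = i then ∑ l, u a l * C l i else 0) = e * u b j
  au : ∀ p : Equiv.Perm ι, (∀ i j, C (p i) (p j) = C i j) →
    (∀ i, d (p i) = d i) ∧ ∀ a ∈ P, ∃ b ∈ P, ∃ e : ℤˣ, ∀ j, u a (p j) = e * u b j
  sum : ∀ i j, 2 * ∑ a ∈ P, u a i * ((∑ l, u a l * C l j) * d j) = if i = j then (m : ℤ) else 0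

theorem Dat.tr {ι ι' κ : Type} [Fintype ι] [DecidableEq ι] [Fintype ι'] [DecidableEq ι']
    {C : Matrix ι ι ℤ} {d : ι → ℤ} {P : Finset κ} {u : κ → ι → ℤ} {m : ℕ} (h : Dat C d P u m)
    {C' : Matrix ι' ι' ℤ} (e : ι' ≃ ι) (t : ∀ i j, C' i j = C (e i) (e j)) :
    Dat C' (fun i => d (e i)) P (fun a i => u a (e i)) m := by
  have k : ∀ a j, ∑ l, u a (e l) * C' l j = ∑ l, u a l * C l (e j) := fun a j => by
    simp only [t]
    exact e.sum_comp fun l => u a l * C l (e j)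
  refine ⟨fun i j => by rw [t, t, h.sym], fun a ha b hb c => h.inj a ha b hb (funext fun i => ?_),
    fun a ha b hb c => h.dis a ha b hb (funext fun i => ?_), fun i a ha => ?_, fun p hp => ?_,
    fun i j => by simp only [k, h.sum, e.apply_eq_iff_eq]⟩
  · simpa using congrFun c (e.symm i)
  · simpa using congrFun c (e.symm i)
  · obtain ⟨b, hb, c, h1⟩ := h.rf (e i) a ha
    exact ⟨b, hb, c, fun j => by simpa only [k, e.apply_eq_iff_eq] using h1 (e j)⟩
  · obtain ⟨h1, h2⟩ := h.au (e.permCongr p) fun a b => by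
      rw [Equiv.permCongr_apply, Equiv.permCongr_apply, ← t, hp, t, e.apply_symm_apply,
        e.apply_symm_apply]
    refine ⟨fun i => by simpa using h1 (e i), fun a ha => ?_⟩
    obtain ⟨b, hb, c, h3⟩ := h2 a ha
    exact ⟨b, hb, c, fun j => by simpa using h3 (e j)⟩

/-- the conclusion -/
def Fm (R : RS) (m : ℕ) : Prop := ∃ (S : Finset R.Q) (b : R.Q → R.Q →ₗ[ℤ] ℤ),
  (∀ w, Ext R w → ∀ s ∈ S, w s ∈ S ∧ ∀ γ, b (w s) (w γ) = b s γ) ∧
    ∀ γ, ∑ s ∈ S, b s γ • s = m • γ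

theorem Dat.fm {R : RS} (hR : R.Ok) {κ : Type} {d : Fin R.r → ℤ} {P : Finset κ}
    {u : κ → R.Q} {m : ℕ} (h : Dat R.A d P u m) : Fm R m := by
  classical
  let b : R.Q → R.Q →ₗ[ℤ] ℤ := fun s => ∑ j, (R.pr s j * d j) • LinearMap.proj j
  have hb : ∀ s γ, b s γ = ∑ j, R.pr s j * d j * γ j := fun s γ => by simp [b]
  have b1 : ∀ s j, b s (R.α j) = R.pr s j * d j := fun s j => by simp [hb, RS.α_apply]
  have b2 : ∀ s γ, b s γ = b γ s := fun s γ => by
    simp only [hb, RS.pr_eq, Finset.sum_mul]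
    rw [Finset.sum_comm]
    exact Finset.sum_congr rfl fun i _ => Finset.sum_congr rfl fun j _ => by
      linear_combination s i * γ j * h.sym i j
  let S := P.image u ∪ P.image fun a => -u a
  have hS : ∀ s, s ∈ S ↔ ∃ a ∈ P, ∃ e : ℤˣ, s = (e : ℤ) • u a := fun s => by
    simp only [S, Finset.mem_union, Finset.mem_image]
    constructor
    · rintro (⟨a, ha, rfl⟩ | ⟨a, ha, rfl⟩)
      exacts [⟨a, ha, 1, by simp⟩, ⟨a, ha, -1, by simp⟩]
    · rintro ⟨a, ha, e, rfl⟩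
      rcases Int.units_eq_one_or e with rfl | rfl
      exacts [.inl ⟨a, ha, by simp⟩, .inr ⟨a, ha, by simp⟩]
  have key : ∀ w : R.Aut, (∀ a ∈ P, ∃ a' ∈ P, ∃ e : ℤˣ, ∀ j, w (u a) j = e * u a' j) →
      ∀ s ∈ S, w s ∈ S := fun w hw s hs => by
    obtain ⟨a, ha, e, rfl⟩ := (hS s).1 hs
    obtain ⟨a', ha', e', h1⟩ := hw a ha
    exact (hS _).2 ⟨a', ha', e * e', funext fun j => by
      rw [map_smul, Pi.smul_apply, h1, Units.val_mul, Pi.smul_apply, smul_eq_mul, smul_eq_mul,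
        mul_assoc]⟩
  have h1 : ∀ l : List (Fin R.r), (∀ s ∈ S, R.wd l s ∈ S) ∧
      ∀ s γ, b (R.wd l s) (R.wd l γ) = b s γ := fun l => by
    induction l with
    | nil => exact ⟨fun _ h => h, fun _ _ => rfl⟩
    | cons i l ih =>
      simp only [RS.wd_cons, RS.mul_app]
      refine ⟨fun s hs => key _ (fun a ha => ?_) _ (ih.1 s hs), fun s γ => ?_⟩
      · simpa [hR.sE_eq, RS.α_apply, RS.pr_eq] using h.rf i a ha
      · rw [← ih.2 s γ, hR.sE_eq i (R.wd l γ), map_sub, map_smul, b1, b2, hR.sE_eq, map_sub,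
          map_smul, b1, b2, sub_eq_add_neg (R.wd l s), RS.pr_add, RS.pr_neg, RS.pr_smul, RS.pr_α,
          hR.diag]
        simp only [smul_eq_mul]
        ring
  refine ⟨S, b, ?_, fun γ => funext fun i => ?_⟩
  · rintro _ ⟨a, ha, π, hπ, rfl⟩ s hs
    obtain ⟨l, -, rfl⟩ := hR.exists_wd ha
    obtain ⟨h2, h3⟩ := h.au π.symm fun i j => by simpa using (hπ (π.symm i) (π.symm j)).symm
    refine ⟨(h1 l).1 _ (key _ h3 s hs), fun γ => ((h1 l).2 _ _).trans ?_⟩
    rw [hb, hb, ← Equiv.sum_comp π]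
    refine Finset.sum_congr rfl fun j _ => ?_
    rw [← P011UP.pm_pr hπ s j, ← h2 (π j), π.symm_apply_apply]
    exact congrArg _ (congrArg γ (π.symm_apply_apply j))
  · rw [Finset.sum_union (Finset.disjoint_left.2 fun s h1 h2 => by
      obtain ⟨a, ha, rfl⟩ := Finset.mem_image.1 h1
      obtain ⟨a', ha', e⟩ := Finset.mem_image.1 h2
      exact h.dis a ha a' ha' e.symm), Finset.sum_image h.inj,
      Finset.sum_image fun a ha a' ha' e => h.inj a ha a' ha' (neg_injective e)]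
    have h2 : ∀ j, (2 * ∑ a ∈ P, u a i * (R.pr (u a) j * d j)) * γ j =
        (if i = j then (m : ℤ) else 0) * γ j := fun j => congrArg (· * _) (h.sum i j)
    have h3 := Finset.sum_congr rfl fun j (_ : j ∈ Finset.univ) => h2 j
    simp only [ite_mul, zero_mul, Finset.sum_ite_eq, Finset.mem_univ, if_true] at h3
    rw [← Finset.sum_add_distrib, Pi.smul_apply, nsmul_eq_mul, ← h3]
    simp only [Finset.sum_apply, Pi.add_apply, Pi.smul_apply, Pi.neg_apply, smul_eq_mul, hb,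
      RS.pr_neg, Finset.mul_sum, Finset.sum_mul, ← Finset.sum_add_distrib]
    rw [Finset.sum_comm]
    exact Finset.sum_congr rfl fun _ _ => Finset.sum_congr rfl fun _ _ => by ring

/-- digits -/
def dc (n c : ℕ) (i : Fin n) : ℤ := (c / 8 ^ i.1 % 8 : ℕ)

/-- the check for a table of positive roots -/
def Ck {n : ℕ} (C : Matrix (Fin n) (Fin n) ℤ) (d : Fin n → ℤ) (L : List ℕ) (m : ℕ) : Prop :=
  (∀ i j, C i j * d j = C j i * d i) ∧ L.Nodup ∧
  (∀ a ∈ L, 0 < a ∧ ∑ i, dc n a i * 8 ^ i.1 = a) ∧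
  (∀ i, ∀ a ∈ L, a = 8 ^ i.1 ∨ (a - (∑ l, dc n a l * C l i) * 8 ^ i.1).toNat ∈ L ∧ ∀ j,
    dc n a j - (if j = i then ∑ l, dc n a l * C l i else 0) =
      dc n (a - (∑ l, dc n a l * C l i) * 8 ^ i.1).toNat j) ∧
  (∀ i j, dc n (8 ^ i.1) j - (if j = i then ∑ l, dc n (8 ^ i.1) l * C l i else 0) =
    -dc n (8 ^ i.1) j) ∧
  ∀ i j, 2 * (L.map fun a => dc n a i * ((∑ l, dc n a l * C l j) * d j)).sum =
    if i = j then (m : ℤ) else 0

instance {n : ℕ} (C : Matrix (Fin n) (Fin n) ℤ) (d : Fin n → ℤ) (L : List ℕ) (m : ℕ) :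
    Decidable (Ck C d L m) := by unfold Ck; infer_instance

theorem Ck.dat {n : ℕ} {C : Matrix (Fin n) (Fin n) ℤ} {d : Fin n → ℤ} {L : List ℕ} {m : ℕ}
    (h : Ck C d L m) (h' : ∀ p, Au C p → p = 1 ∨ (∀ i, d (p i) = d i) ∧
      ∀ a ∈ L, ∃ b ∈ L, ∀ j, dc n a (p j) = dc n b j) : Dat C d L.toFinset (dc n) m := by
  obtain ⟨h1, h2, h3, h4, h5, h6⟩ := h
  simp only [← List.mem_toFinset] at h3 h4 h'
  refine ⟨h1, fun a ha b hb e => ?_, fun a ha b hb e => ?_, fun i a ha => ?_, fun p hp => ?_,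
    fun i j => by rw [List.sum_toFinset _ h2, h6]⟩
  · have := (h3 a ha).2
    rw [e, (h3 b hb).2] at this
    omega
  · have := (h3 a ha).2
    simp only [e, Pi.neg_apply, neg_mul, Finset.sum_neg_distrib, (h3 b hb).2] at this
    have := (h3 a ha).1
    omega
  · rcases h4 i a ha with rfl | ⟨e, e'⟩
    · exact ⟨_, ha, -1, fun j => by simpa using h5 i j⟩
    · exact ⟨_, e, 1, fun j => by simpa using e' j⟩
  · rcases h' p hp with rfl | ⟨e, e'⟩
    · exact ⟨fun _ => rfl, fun a ha => ⟨a, ha, 1, fun j => by simp⟩⟩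
    · exact ⟨e, fun a ha => (e' a ha).imp fun b hb => ⟨hb.1, 1, fun j => by simpa using hb.2 j⟩⟩

theorem ckE8 : Ck E₈ (fun _ => 1) [2097152, 262144, 32768, 4096, 512, 64, 8, 1, 2359296, 294912,
    36864, 4608, 576, 520, 65, 2392064, 299008, 37376, 4672, 4616, 584, 577, 2396160, 299520, 37440,
    37384, 4680, 4673, 585, 2396672, 299584, 299528, 37448, 5192, 37441, 4681, 2396736, 2396680,
    299592, 37960, 299585, 37449, 5193, 2396744, 300104, 42056, 2396737, 299593, 37961, 5257,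
    2397256, 304200, 2396745, 300105, 42057, 38025, 2401352, 336968, 2397257, 304201, 300169, 42121,
    2434120, 2401353, 336969, 2397321, 304265, 42633, 2696264, 2434121, 2401417, 337033, 304777,
    42641, 2696265, 2434185, 2401929, 337545, 304785, 2696329, 2434697, 341641, 2401937, 337553,
    2696841, 2438793, 2434705, 341649, 2700937, 2696849, 2438801, 342161, 2733705, 2700945, 2439313,
    342225, 2733713, 2701457, 2439377, 342226, 2734225, 2701521, 2439378, 2738321, 2734289, 2701522,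
    2738385, 2734290, 2738897, 2738386, 2738905, 2738898, 2738962, 2738906, 2738970, 2739482,
    2743578, 2776346, 3038490, 5135642] 60 := by decide +kernel

theorem ckE7 : Ck E₇ (fun _ => 1) [262144, 32768, 4096, 512, 64, 8, 1, 294912, 36864, 4608, 576,
    520, 65, 299008, 37376, 4672, 4616, 584, 577, 299520, 37440, 37384, 4680, 4673, 585, 299584,
    299528, 37448, 5192, 37441, 4681, 299592, 37960, 299585, 37449, 5193, 300104, 42056, 299593,
    37961, 5257, 304200, 300105, 42057, 38025, 336968, 304201, 300169, 42121, 336969, 304265, 42633,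
    337033, 304777, 42641, 337545, 304785, 341641, 337553, 341649, 342161, 342225, 342226] 36 := by
  decide +kernel

/-- the positive roots of `E₆` -/
def L6 : List ℕ := [32768, 4096, 512, 64, 8, 1, 36864, 4608, 576, 520, 65, 37376, 4672, 4616, 584,
  577, 37440, 37384, 4680, 4673, 585, 37448, 5192, 37441, 4681, 37960, 37449, 5193, 42056, 37961,
  5257, 42057, 38025, 42121, 42633, 42641]

theorem ckE6 : Ck E₆ (fun _ => 1) L6 24 := by decide +kernel

theorem ckF : Ck F₄ ![2, 2, 1, 1] [512, 64, 8, 1, 576, 72, 9, 584, 136, 73, 648, 585, 137, 1160,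
    649, 145, 1161, 657, 1169, 721, 1233, 1297, 1305, 1306] 36 := by decide +kernel

theorem ckG : Ck G₂ ![3, 1] [8, 1, 9, 17, 25, 26] 24 := by decide +kernel

/-- the positive roots of `D₄` -/
def L4 : List ℕ := [512, 64, 8, 1, 520, 72, 9, 584, 521, 73, 585, 593]

theorem ckD : Ck (D 4) (fun _ => 1) L4 12 := by decide +kernel

instance {n : ℕ} (M : Matrix (Fin n) (Fin n) ℤ) (p : Equiv.Perm (Fin n)) : Decidable (Au M p) :=
  @Fintype.decidableForallFintype _ _ (fun _ => @Fintype.decidableForallFintype _ _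
    (fun _ => Int.decEq _ _) _) _

/-- the table is stable -/
def Sb (n : ℕ) (L : List ℕ) (p : Fin n → Fin n) : Prop :=
  ∀ a ∈ L, ∃ b ∈ L, ∀ j, dc n a (p j) = dc n b j

instance (n : ℕ) (L : List ℕ) (p : Fin n → Fin n) : Decidable (Sb n L p) := by
  unfold Sb; infer_instance

theorem auD : ∀ p : Equiv.Perm (Fin 4), Au (D 4) p → Sb 4 L4 p := by decide +kernel

theorem datD : Dat (D 4) (fun _ => 1) L4.toFinset (dc 4) 12 :=
  ckD.dat fun p h => .inr ⟨fun _ => rfl, auD p h⟩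

theorem flip6 {p : Equiv.Perm (Fin 6)} (h : Au E₆ p) : p = 1 ∨ ⇑p = ![5, 1, 4, 3, 2, 0] := by
  have hv := h.vec (by rw [E₆_det]; decide) ![16, 22, 30, 42, 30, 16] (by decide)
  have k1 : ∀ a : Fin 6, (![16, 22, 30, 42, 30, 16] a = (22 : ℤ) → a = 1) ∧
      (![16, 22, 30, 42, 30, 16] a = (42 : ℤ) → a = 3) ∧
      (![16, 22, 30, 42, 30, 16] a = (16 : ℤ) → a = 0 ∨ a = 5) := by decide
  have k2 : ∀ a : Fin 6, (E₆ 0 a = -1 → a = 2) ∧ (E₆ 5 a = -1 → a = 4) := by decide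
  have e1 := (k1 _).1 (hv 1)
  have e3 := (k1 _).2.1 (hv 3)
  have n05 : p 0 ≠ p 5 := p.injective.ne (by decide)
  have a02 := h 0 2
  have a54 := h 5 4
  rcases (k1 _).2.2 (hv 0) with e0 | e0 <;> rcases (k1 _).2.2 (hv 5) with e5 | e5 <;>
    rw [e0] at a02 <;> rw [e5] at a54
  · exact absurd (e0.trans e5.symm) n05
  · have e2 := (k2 _).1 a02
    have e4 := (k2 _).2 a54
    exact .inl (Equiv.ext fun a => by fin_cases a <;> assumption)
  · have e2 := (k2 _).2 a02
    have e4 := (k2 _).1 a54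
    exact .inr (funext fun a => by fin_cases a <;> assumption)
  · exact absurd (e0.trans e5.symm) n05

theorem datE6 : Dat E₆ (fun _ => 1) L6.toFinset (dc 6) 24 := ckE6.dat fun p h =>
  (flip6 h).imp_right fun e => ⟨fun _ => rfl, show Sb 6 L6 p by rw [e]; decide +kernel⟩

end Vale.Agent.P011UMS
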