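import Vale.Agent.P011UMS.Dat

/-!
Invariant frames of the root lattices: the classical types. The group of the diagram automorphisms.
-/

set_option autoImplicit false
set_option linter.all false

namespace Vale.Agent.P011UMS

open Matrix CartanMatrix Vale.Agent.P183CH Vale.Agent.P011U Vale.Agent.P011UD
open Vale.Agent.P011UC (pa)
open Vale.Agent.P011UHB (Ext Od MS DGP)

variable {n : ℕ}

/-- the short roots of `B` -/
def uB (a i : ℕ) : ℤ := if i < a then 0 else 1

theorem prB (h : 2 ≤ n) (a j : Fin n) : ∑ l : Fin n, uB a l * B n l j =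
    if j.1 + 1 < n then (if a.1 = j then 1 else if a.1 = j + 1 then -1 else 0) else
      if a.1 = j then 2 else 0 := by
  have := a.2
  have := j.2
  rw [sumB h]
  simp only [uB]
  split_ifs <;> omega

theorem datB (h : 2 ≤ n) : Dat (B n) (fun j => if j.1 + 1 < n then 2 else 1) Finset.univ
    (fun a i : Fin n => uB a i) 4 := by
  refine ⟨fun i j => ?_, fun a _ b _ e => ?_, fun a _ b _ e => ?_, fun i a _ => ?_, fun p hp => ?_,
    fun i j => ?_⟩
  · have := i.2
    have := j.2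
    simp only [B, of_apply, Fin.ext_iff]
    split_ifs <;> omega
  · have h1 := congrFun e a
    have h2 := congrFun e b
    simp only [uB] at h1 h2
    exact Fin.ext (by split_ifs at h1 h2 <;> omega)
  · have h1 := congrFun e ⟨n - 1, by omega⟩
    have := a.2
    have := b.2
    simp only [uB, Pi.neg_apply] at h1
    split_ifs at h1 <;> omega
  · have := a.2
    have := i.2
    refine ⟨⟨if a.1 = i ∧ i.1 + 1 < n then i + 1 else if a.1 = i + 1 then i else a, by
      split_ifs <;> omega⟩, Finset.mem_univ _, if a.1 = i ∧ i.1 + 1 = n then -1 else 1, fun j => ?_⟩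
    have := j.2
    simp only [prB h]
    simp only [uB, Fin.ext_iff, apply_ite (Units.val), Units.val_neg, Units.val_one]
    split_ifs <;> omega
  · rw [autB h hp]
    exact ⟨fun _ => rfl, fun a ha => ⟨a, ha, 1, fun j => by simp⟩⟩
  · have := i.2
    have := j.2
    rw [sum4 (fun a => uB a i) _ j (j + 1) n n 2 (-2) 0 0 fun a => by
      have := a.2
      rw [prB h]
      split_ifs <;> omega]
    simp only [uB, Fin.ext_iff]
    split_ifs <;> omega

/-- the long roots of `C` -/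
def uC (n a i : ℕ) : ℤ := if i < a then 0 else if i + 1 < n then 2 else 1

theorem prC (h : 2 ≤ n) (a j : Fin n) : ∑ l : Fin n, uC n a l * C n l j =
    if a.1 = j then 2 else if a.1 = j + 1 then -2 else 0 := by
  have := a.2
  have := j.2
  rw [sumC h]
  simp only [uC]
  split_ifs <;> omega

theorem datC (h : 2 ≤ n) : Dat (C n) (fun j => if j.1 + 1 < n then 1 else 2) Finset.univ
    (fun a i : Fin n => uC n a i) 8 := by
  refine ⟨fun i j => ?_, fun a _ b _ e => ?_, fun a _ b _ e => ?_, fun i a _ => ?_, fun p hp => ?_,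
    fun i j => ?_⟩
  · have := i.2
    have := j.2
    simp only [C, of_apply, Fin.ext_iff]
    split_ifs <;> omega
  · have h1 := congrFun e a
    have h2 := congrFun e b
    simp only [uC] at h1 h2
    exact Fin.ext (by split_ifs at h1 h2 <;> omega)
  · have h1 := congrFun e ⟨n - 1, by omega⟩
    have := a.2
    have := b.2
    simp only [uC, Pi.neg_apply] at h1
    split_ifs at h1 <;> omega
  · have := a.2
    have := i.2
    refine ⟨⟨if a.1 = i ∧ i.1 + 1 < n then i + 1 else if a.1 = i + 1 then i else a, by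
      split_ifs <;> omega⟩, Finset.mem_univ _, if a.1 = i ∧ i.1 + 1 = n then -1 else 1, fun j => ?_⟩
    have := j.2
    simp only [prC h]
    simp only [uC, Fin.ext_iff, apply_ite (Units.val), Units.val_neg, Units.val_one]
    split_ifs <;> omega
  · rw [autC h hp]
    exact ⟨fun _ => rfl, fun a ha => ⟨a, ha, 1, fun j => by simp⟩⟩
  · have := i.2
    have := j.2
    rw [sum4 (fun a => uC n a i) _ j (j + 1) n n (if j.1 + 1 < n then 2 else 4) (-2) 0 0 fun a => by
      have := a.2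
      rw [prC h]
      split_ifs <;> omega]
    simp only [uC, Fin.ext_iff]
    split_ifs <;> omega

/-- twice the weights of the vector representation of `D` -/
def uD (n a i : ℕ) : ℤ :=
  if i < a then (if a + 1 = n ∧ i + 2 = n then -1 else 0) else if i + 2 < n then 2 else 1

theorem prD (h : 4 ≤ n) (a j : Fin n) : ∑ l : Fin n, uD n a l * D n l j =
    if a.1 = j then 2 else if a.1 = j + 1 then -2 else if a.1 + 2 = n ∧ j.1 + 1 = n then 2 else 0 := by
  have := a.2
  have := j.2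
  rw [sumD h]
  simp only [uD]
  omega

theorem rfD (h : 4 ≤ n) (i a : Fin n) : ∃ b : Fin n, ∃ e : ℤˣ, ∀ j : Fin n,
    uD n a j - (if j = i then ∑ l : Fin n, uD n a l * D n l i else 0) = e * uD n b j := by
  have := a.2
  have := i.2
  simp only [prD h, Fin.ext_iff]
  by_cases c : i.1 + 1 = n
  · refine ⟨⟨if a.1 + 1 = n then n - 2 else if a.1 + 2 = n then n - 1 else a, by
      split_ifs <;> omega⟩, if n ≤ a.1 + 2 then -1 else 1, fun j => ?_⟩
    have := j.2
    simp only [uD, apply_ite (Units.val), Units.val_neg, Units.val_one]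
    split_ifs <;> omega
  by_cases c1 : a.1 = i
  · refine ⟨⟨i + 1, by omega⟩, 1, fun j => ?_⟩
    have := j.2
    simp only [uD, Units.val_one]
    omega
  by_cases c2 : a.1 = i + 1
  · refine ⟨i, 1, fun j => ?_⟩
    have := j.2
    simp only [uD, Units.val_one]
    omega
  · refine ⟨a, 1, fun j => ?_⟩
    have := j.2
    simp only [uD, Units.val_one]
    omega

theorem flipD (h : 4 < n) {p : Equiv.Perm (Fin n)} (hp : Au (D n) p) : p = 1 ∨ ∀ a,
    (p a).1 = if a.1 + 2 = n then n - 1 else if a.1 + 1 = n then n - 2 else a := by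
  have h1 := fun a ha => autD h.le hp a (.inr ⟨ha, h⟩)
  have h2 : ∀ a, n ≤ a.1 + 2 → n ≤ (p a).1 + 2 := fun a ha => by
    by_contra c
    have := p.injective (h1 _ (not_le.1 c))
    rw [this] at c
    exact c ha
  have h3 : (p ⟨n - 2, by omega⟩).1 ≠ p ⟨n - 1, by omega⟩ := fun e => by
    have := congrArg Fin.val (p.injective (Fin.ext e))
    simp only [] at this
    omega
  have h4 := h2 ⟨n - 2, by omega⟩ (by simp only []; omega)
  have h5 := h2 ⟨n - 1, by omega⟩ (by simp only []; omega)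
  have h6 := (p ⟨n - 2, by omega⟩).2
  have h7 := (p ⟨n - 1, by omega⟩).2
  have key : ∀ a : Fin n, a.1 + 2 < n ∨ (a.1 + 2 = n ∧ p a = p ⟨n - 2, by omega⟩) ∨
      (a.1 + 1 = n ∧ p a = p ⟨n - 1, by omega⟩) := fun a => by
    have := a.2
    rcases lt_trichotomy (a.1 + 2) n with e | e | e
    exacts [.inl e, .inr (.inl ⟨e, congrArg p (Fin.ext (by simp only []; omega))⟩),
      .inr (.inr ⟨by omega, congrArg p (Fin.ext (by simp only []; omega))⟩)]
  by_cases c : (p ⟨n - 2, by omega⟩).1 = n - 2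
  · refine .inl (Equiv.ext fun a => ?_)
    rcases key a with e | ⟨e, e'⟩ | ⟨e, e'⟩
    exacts [h1 a e, Fin.ext (by rw [e']; show _ = a.1; omega),
      Fin.ext (by rw [e']; show _ = a.1; omega)]
  · refine .inr fun a => ?_
    rcases key a with e | ⟨e, e'⟩ | ⟨e, e'⟩
    · rw [h1 a e]
      split_ifs <;> omega
    all_goals
      rw [e']
      split_ifs <;> omega

theorem datDn (h : 4 < n) : Dat (D n) (fun _ => 1) Finset.univ
    (fun a i : Fin n => uD n a i) 8 := by
  refine ⟨fun i j => ?_, fun a _ b _ e => ?_, fun a _ b _ e => ?_, fun i a _ => ?_, fun p hp => ?_,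
    fun i j => ?_⟩
  · have := i.2
    have := j.2
    simp only [D, of_apply, Fin.ext_iff]
    split_ifs <;> omega
  · have h1 := congrFun e a
    have h2 := congrFun e b
    simp only [uD] at h1 h2
    exact Fin.ext (by split_ifs at h1 h2 <;> omega)
  · have h1 := congrFun e ⟨n - 1, by omega⟩
    have := a.2
    have := b.2
    simp only [uD, Pi.neg_apply] at h1
    split_ifs at h1 <;> omega
  · simpa only [Finset.mem_univ, true_and] using rfD h.le i a
  · refine ⟨fun _ => rfl, fun a ha => ?_⟩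
    rcases flipD h hp with rfl | e
    · exact ⟨a, ha, 1, fun j => by simp⟩
    refine ⟨a, ha, if a.1 + 1 = n then -1 else 1, fun j => ?_⟩
    have := a.2
    have := j.2
    simp only [e, uD, apply_ite (Units.val), Units.val_neg, Units.val_one]
    split_ifs <;> omega
  · have := i.2
    have := j.2
    rw [sum4 (fun a => uD n a i) _ j (j + 1) (n - 2) n 2 (-2) (if j.1 + 1 = n then 2 else 0) 0
      fun a => by
        have := a.2
        rw [prD h.le]
        split_ifs <;> omega]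
    simp only [uD, Fin.ext_iff]
    by_cases c : j.1 + 1 = n
    · simp only [if_pos c]
      omega
    · simp only [if_neg c]
      omega

theorem ms : MS := fun R hR hA => by
  have k : ∀ a b c : ℕ, Fm R (2 ^ a * 3 ^ b * 5 ^ c) → c = 0 ∨ Od R 5 → ∃ (S : Finset R.Q)
      (b : R.Q → R.Q →ₗ[ℤ] ℤ) (a₂ a₃ a₅ : ℕ),
      (∀ w, Ext R w → ∀ s ∈ S, w s ∈ S ∧ ∀ γ, b (w s) (w γ) = b s γ) ∧
      (∀ γ, ∑ s ∈ S, b s γ • s = (2 ^ a₂ * 3 ^ a₃ * 5 ^ a₅ : ℕ) • γ) ∧ (a₅ = 0 ∨ Od R 5) :=
    fun a b c ⟨S, f, h1, h2⟩ h => ⟨S, f, a, b, c, h1, h2, h⟩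
  rcases cls R hR with t | ⟨n, e, l, t⟩ | ⟨n, e, l, t⟩ | ⟨n, e, l, t⟩ | ⟨e, t⟩ | ⟨e, t⟩ |
    ⟨e, t⟩ | ⟨e, t⟩ | ⟨e, t⟩
  · exact (hA t).elim
  · exact k 2 0 0 (((datB l).tr e t).fm hR) (.inl rfl)
  · exact k 3 0 0 (((datC (by omega)).tr e t).fm hR) (.inl rfl)
  · rcases l.eq_or_lt with rfl | l
    exacts [k 2 1 0 ((datD.tr e t).fm hR) (.inl rfl), k 3 0 0 (((datDn l).tr e t).fm hR) (.inl rfl)]
  · exact k 3 1 0 ((datE6.tr e t).fm hR) (.inl rfl)
  · exact k 2 2 0 (((ckE7.dat fun _ h => .inl (autE7 h)).tr e t).fm hR) (.inl rfl)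
  · exact k 2 1 1 (((ckE8.dat fun _ h => .inl (autE8 h)).tr e t).fm hR) (.inr (.inr ⟨rfl, e, t⟩))
  · exact k 2 2 0 (((ckF.dat fun _ h => .inl (autF h)).tr e t).fm hR) (.inl rfl)
  · exact k 3 1 0 (((ckG.dat fun _ h => .inl (autG h)).tr e t).fm hR) (.inl rfl)

theorem two_of {Γ H : Type} [Group Γ] [Group H] (π : Γ →* H)
    (h : ∀ σ τ, π σ ≠ 1 → π τ ≠ 1 → π σ = π τ) : ∃ ε : Γ →* ℤˣ, ∀ σ, ε σ = 1 ↔ π σ = 1 := by
  classical
  refine ⟨MonoidHom.mk' (fun σ => if π σ = 1 then 1 else -1) fun σ τ => ?_, fun σ => by simp⟩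
  by_cases a : π σ = 1 <;> by_cases b : π τ = 1 <;> simp only [map_mul, a, b, one_mul, mul_one,
    if_true, if_false]
  rw [if_pos (by rw [h σ τ⁻¹ a (by simpa using b), ← map_mul, inv_mul_cancel, map_one])]
  simp

theorem a3 : ∀ p : Equiv.Perm (Fin 4), Au (D 4) p → Equiv.Perm.sign p = 1 → p ≠ 1 → p ^ 3 = 1 ∧
    ∀ q : Equiv.Perm (Fin 4), Au (D 4) q → Equiv.Perm.sign q = 1 → q = p ^ 0 ∨ q = p ^ 1 ∨ q = p ^ 2 := by
  decide +kernel

theorem dgp : DGP := fun R hR Γ _ π hπ => by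
  have k : ∀ {n : ℕ} {C : Matrix (Fin n) (Fin n) ℤ} {e : Fin R.r ≃ Fin n}, Ty R C e →
      (∀ p q, Au C p → Au C q → p ≠ 1 → q ≠ 1 → p = q) → ∃ ε : Γ →* ℤˣ, (∀ σ, π σ = 1 → ε σ = 1) ∧
      ((∀ σ, ε σ = 1 → π σ = 1) ∨ (¬TyA R ∧ π.ker.relIndex ε.ker = 3)) := fun {_ _ e} t h => by
    obtain ⟨ε, hε⟩ := two_of π fun σ τ a b => e.permCongr.injective
      (h _ _ (t.au (hπ σ)) (t.au (hπ τ)) (mt pc_one a) (mt pc_one b))
    exact ⟨ε, fun σ => (hε σ).2, .inl fun σ => (hε σ).1⟩
  rcases cls R hR with ⟨n, e, t⟩ | ⟨n, e, l, t⟩ | ⟨n, e, l, t⟩ | ⟨n, e, l, t⟩ | ⟨e, t⟩ | ⟨e, t⟩ |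
    ⟨e, t⟩ | ⟨e, t⟩ | ⟨e, t⟩
  · have k1 : ∀ p, Au (A n) p → p ≠ 1 → ∀ a, (p a).1 + a + 1 = n := fun p h c =>
      (path_aut (p := p) fun a b e => by
        have := h a b
        simp only [A, of_apply, Fin.ext_iff] at this
        split_ifs at this <;> omega).resolve_left c
    exact k t fun p q a b c d => Equiv.ext fun i => Fin.ext (by
      have := k1 p a c i
      have := k1 q b d i
      omega)
  · exact k t fun p q a _ c _ => (c (autB l a)).elim
  · exact k t fun p q a _ c _ => (c (autC (by omega) a)).elim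
  · rcases l.eq_or_lt with rfl | l
    swap
    · exact k t fun p q a b c d => Equiv.ext fun i => Fin.ext
        (((flipD l a).resolve_left c i).trans ((flipD l b).resolve_left d i).symm)
    let π' : Γ →* Equiv.Perm (Fin 4) := e.permCongrHom.toMonoidHom.comp π
    have h1 : ∀ σ, Au (D 4) (π' σ) := fun σ => t.au (hπ σ)
    have h2 : π.ker = π'.ker := (MonoidHom.ker_comp_of_injective _ _ e.permCongrHom.injective).symm
    refine ⟨Equiv.Perm.sign.comp π', fun σ h => by simp [π', h], ?_⟩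
    by_cases c : ∀ σ, Equiv.Perm.sign (π' σ) = 1 → π' σ = 1
    · exact .inl fun σ h => pc_one (c σ h)
    push Not at c
    obtain ⟨σ, h3, h4⟩ := c
    obtain ⟨h5, h6⟩ := a3 _ (h1 σ) h3 h4
    haveI : Fact (Nat.Prime 3) := ⟨Nat.prime_three⟩
    refine .inr ⟨fun a => (nta R a).1 4 e le_rfl t, ?_⟩
    rw [h2, Subgroup.relIndex_ker, ← orderOf_eq_prime h5 h4, ← Nat.card_zpowers]
    congr 2
    refine le_antisymm ?_ ((Subgroup.zpowers_le).2 ⟨σ, h3, rfl⟩)
    rintro _ ⟨τ, h7, rfl⟩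
    rcases h6 _ (h1 τ) h7 with e | e | e <;> exact e ▸ pow_mem (Subgroup.mem_zpowers _) _
  · exact k t fun p q a b c d => DFunLike.coe_injective
      (((flip6 a).resolve_left c).trans ((flip6 b).resolve_left d).symm)
  · exact k t fun p q a _ c _ => (c (autE7 a)).elim
  · exact k t fun p q a _ c _ => (c (autE8 a)).elim
  · exact k t fun p q a _ c _ => (c (autF a)).elim
  · exact k t fun p q a _ c _ => (c (autG a)).elim

end Vale.Agent.P011UMS
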